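import Vale.Agent.P338.R2.H898.Final
import Vale.Agent.P338.R2.H784.Analytic

/-!
From the bound for the running times on single matrices to the inequality for the worst-case
running times.
-/

namespace Vale.Agent.P338.R2.H207

open Vale.Agent.P338.R2.H898

theorem finite_mulTimes (A : MTM) (n : ℕ) :
    {t | ∃ x y : List Bool, x.length = n ∧ y.length = n ∧ t = A.time (mulWord x y)}.Finite := by
  have h : {t | ∃ x y : List Bool, x.length = n ∧ y.length = n ∧ t = A.time (mulWord x y)} ⊆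
      (fun p : List Bool × List Bool => A.time (mulWord p.1 p.2)) ''
        ({x : List Bool | x.length = n} ×ˢ {x : List Bool | x.length = n}) := by
    rintro t ⟨x, y, hx, hy, rfl⟩
    exact ⟨(x, y), ⟨hx, hy⟩, rfl⟩
  exact ((((List.finite_length_eq Bool n).prod (List.finite_length_eq Bool n)).image _).subset h)

/-- The running time is at most the worst-case running time. -/
theorem time_le_mulTime (A : MTM) {n : ℕ} {x y : List Bool} (hx : x.length = n)
    (hy : y.length = n) : A.time (mulWord x y) ≤ mulTime A n :=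
  le_csSup (finite_mulTimes A n).bddAbove ⟨x, y, hx, hy, rfl⟩

theorem finite_transTimes (B : MTM) (r s : ℕ) :
    {t | ∃ M : Fin r → Fin s → Bool, t = B.time (matWord M)}.Finite := by
  have h : {t | ∃ M : Fin r → Fin s → Bool, t = B.time (matWord M)} ⊆
      Set.range (fun M : Fin r → Fin s → Bool => B.time (matWord M)) := by
    rintro t ⟨M, rfl⟩
    exact ⟨M, rfl⟩
  exact (Set.finite_range _).subset h

/-- The worst-case running time is attained. -/
theorem exists_transTime (B : MTM) (r s : ℕ) :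
    ∃ M : Fin r → Fin s → Bool, transTime B r s = B.time (matWord M) := by
  have h : sSup {t | ∃ M : Fin r → Fin s → Bool, t = B.time (matWord M)} ∈
      {t | ∃ M : Fin r → Fin s → Bool, t = B.time (matWord M)} :=
    Nat.sSup_mem ⟨_, fun _ _ => false, rfl⟩ (finite_transTimes B r s).bddAbove
  exact h

theorem ex_le_log {r s : ℕ} (hr : 2 ≤ r) (hs : 2 ≤ s) (hn : H784.Near r s) :
    (H784.ex r s : ℝ) ≤ 3 * Real.log (r * s) := by
  have h4 : 4 ^ H784.ex r s ≤ 16 * (r * s) := H784.four_pow_ex_le (by omega) hn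
  have h4' : (4 : ℝ) ^ H784.ex r s ≤ 16 * ((r : ℝ) * s) := by exact_mod_cast h4
  have hrs : (4 : ℝ) ≤ (r : ℝ) * s := by
    have : 2 * 2 ≤ r * s := Nat.mul_le_mul hr hs
    exact_mod_cast this
  have e1 := Real.log_le_log (by positivity) h4'
  rw [Real.log_pow, Real.log_mul (by norm_num) (by positivity),
    show (16 : ℝ) = 4 ^ 2 by norm_num, Real.log_pow] at e1
  push_cast at e1
  have e2 : Real.log 4 ≤ Real.log ((r : ℝ) * s) := Real.log_le_log (by norm_num) hrs
  have e3 : 1 ≤ Real.log 4 := by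
    have : Real.log 4 = 2 * Real.log 2 := by
      rw [show (4 : ℝ) = 2 ^ 2 by norm_num, Real.log_pow]
      norm_num
    have := Real.log_two_gt_d9
    linarith
  have e4 : (0 : ℝ) ≤ H784.ex r s := Nat.cast_nonneg _
  nlinarith

theorem log_ex_le {r s : ℕ} (hr : 2 ≤ r) (hs : 2 ≤ s) (hn : H784.Near r s) :
    (Nat.log 2 (H784.ex r s + 1) : ℝ) + 1 ≤ 8 * Real.log (Real.log (r * s) + 2) := by
  have h1 := ex_le_log hr hs hn
  have hrs : (4 : ℝ) ≤ (r : ℝ) * s := by
    have : 2 * 2 ≤ r * s := Nat.mul_le_mul hr hs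
    exact_mod_cast this
  have hlog : 0 ≤ Real.log ((r : ℝ) * s) := Real.log_nonneg (by linarith)
  have h2 := Real.log_two_gt_d9
  set l := H784.ex r s
  set y := Real.log (Real.log ((r : ℝ) * s) + 2) with hy
  have hy2 : Real.log 2 ≤ y := Real.log_le_log (by norm_num) (by linarith)
  have e1 : ((2 : ℝ)) ^ Nat.log 2 (l + 1) ≤ (l : ℝ) + 1 := by
    have := Nat.pow_log_le_self 2 (x := l + 1) (by omega)
    exact_mod_cast this
  have e2 : (l : ℝ) + 1 ≤ 4 * (Real.log ((r : ℝ) * s) + 2) := by linarith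
  have e3 := Real.log_le_log (by positivity) (e1.trans e2)
  rw [Real.log_pow, Real.log_mul (by norm_num) (by linarith),
    show (4 : ℝ) = 2 ^ 2 by norm_num, Real.log_pow] at e3
  push_cast at e3
  have e4 : (Nat.log 2 (l + 1) : ℝ) * Real.log 2 ≤ 3 * y := by linarith
  have e5 : (0 : ℝ) ≤ Nat.log 2 (l + 1) := Nat.cast_nonneg _
  nlinarith

/-- **The inequality of the reduction.** -/
theorem ineq_of_bound {C₀ : ℕ} {A : MTM} (h : ∀ ρ < C₀, ∃ B : MTM, Transposes B ∧ ∃ C : ℝ,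
    ∀ r s : ℕ, 1 ≤ r → 1 ≤ s → H784.Near r s → ∀ M : Fin r → Fin s → Bool,
      H784.Bound C r s (mulTime A (C₀ * H898.mu r s + ρ)) (B.time (matWord M))) :
    IneqL C₀ A := by
  intro ρ hρ
  obtain ⟨B, hB, C, hC⟩ := h ρ hρ
  refine ⟨B, hB, |C| * 128, fun r s hr hs h1 h2 j => ?_⟩
  obtain ⟨M, hM⟩ := exists_transTime B r s
  have hnear : H784.Near r s := ⟨h1, h2⟩
  have hb := hC r s (by omega) (by omega) hnear M j
  rw [hM]
  set T : ℝ := (mulTime A (C₀ * H898.mu r s + ρ) : ℝ)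
  set l := H784.ex r s with hl
  have hT : 0 ≤ T := Nat.cast_nonneg _
  have h4 : 4 ^ l ≤ 16 * (r * s) := H784.four_pow_ex_le (by omega) hnear
  have h4' : (4 : ℝ) ^ l ≤ 16 * ((r : ℝ) * s) := by exact_mod_cast h4
  have hrs : (4 : ℝ) ≤ (r : ℝ) * s := by
    have : 2 * 2 ≤ r * s := Nat.mul_le_mul hr hs
    exact_mod_cast this
  have hlog : 0 ≤ Real.log ((r : ℝ) * s) := Real.log_nonneg (by linarith)
  have g1 := ex_le_log hr hs hnear
  have g2 := log_ex_le hr hs hnear
  rw [← hl] at g1 g2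
  set Y := Real.log (Real.log ((r : ℝ) * s) + 2) with hY
  have hYnn : 0 ≤ Y := Real.log_nonneg (by linarith)
  have hlnn : (0 : ℝ) ≤ l := Nat.cast_nonneg _
  have hln2 : (0 : ℝ) ≤ (Nat.log 2 (l + 1) : ℝ) + 1 := by positivity
  have k1 : (4 : ℝ) ^ l * ((l : ℝ) / 2 ^ j) ≤ 128 * ((r * s * Real.log (r * s)) / 2 ^ j) := by
    have : (4 : ℝ) ^ l * (l : ℝ) ≤ 128 * (r * s * Real.log (r * s)) := by
      calc (4 : ℝ) ^ l * (l : ℝ) ≤ (16 * ((r : ℝ) * s)) * (3 * Real.log (r * s)) :=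
            mul_le_mul h4' g1 hlnn (by positivity)
        _ ≤ 128 * (r * s * Real.log (r * s)) := by
            have : 0 ≤ (r : ℝ) * s * Real.log (r * s) := by positivity
            nlinarith
    calc (4 : ℝ) ^ l * ((l : ℝ) / 2 ^ j) = (4 ^ l * l) / 2 ^ j := by ring
      _ ≤ (128 * (r * s * Real.log (r * s))) / 2 ^ j := by gcongr
      _ = _ := by ring
  have k2 : (4 : ℝ) ^ l * ((Nat.log 2 (l + 1) : ℝ) + 1) ≤ 128 * (r * s * Y) := by
    calc (4 : ℝ) ^ l * ((Nat.log 2 (l + 1) : ℝ) + 1) ≤ (16 * ((r : ℝ) * s)) * (8 * Y) :=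
          mul_le_mul h4' g2 hln2 (by positivity)
      _ = _ := by ring
  have k3 : ((j : ℝ) + 1) * T ≤ 128 * (((j : ℝ) + 1) * T) := by
    have : 0 ≤ ((j : ℝ) + 1) * T := by positivity
    linarith
  have hnn : 0 ≤ ((j : ℝ) + 1) * T + (4 : ℝ) ^ l * ((l : ℝ) / 2 ^ j +
      (Nat.log 2 (l + 1) : ℝ) + 1) := by positivity
  calc (B.time (matWord M) : ℝ)
      ≤ C * (((j : ℝ) + 1) * T + (4 : ℝ) ^ l * ((l : ℝ) / 2 ^ j +
        (Nat.log 2 (l + 1) : ℝ) + 1)) := hb
    _ ≤ |C| * (((j : ℝ) + 1) * T + (4 : ℝ) ^ l * ((l : ℝ) / 2 ^ j +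
        (Nat.log 2 (l + 1) : ℝ) + 1)) := mul_le_mul_of_nonneg_right (le_abs_self C) hnn
    _ ≤ |C| * (128 * (((j : ℝ) + 1) * T + (r * s * Real.log (r * s)) / 2 ^ j + r * s * Y)) := by
        apply mul_le_mul_of_nonneg_left _ (abs_nonneg C)
        have e : (4 : ℝ) ^ l * ((l : ℝ) / 2 ^ j + (Nat.log 2 (l + 1) : ℝ) + 1) =
            (4 : ℝ) ^ l * ((l : ℝ) / 2 ^ j) + (4 : ℝ) ^ l * ((Nat.log 2 (l + 1) : ℝ) + 1) := by
          ring
        rw [e]
        linarith
    _ = |C| * 128 * (((j : ℝ) + 1) * T + (r * s * Real.log (r * s)) / 2 ^ j + r * s * Y) := by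
        ring

end Vale.Agent.P338.R2.H207
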