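import Vale.Agent.P338.R2.H898.Frame
import Vale.Agent.P338.R2.H898.Model

/-!
Basic programs on files for the input and output phases.
-/

namespace Vale.Agent.P338.R2.H207

open Vale.Agent.P338.R2.H898
open Prog

variable {M F α : Type} [DecidableEq F] {d : α}

/-- One operation on one file. -/
def opP (f : F) (o : Op α) : Prog M F α := .prim fun m _ => (m, some (f, o))

/-- Nothing. -/
def nopP : Prog M F α := .prim fun m _ => (m, none)

theorem run_opP (m : M) {z z' : F → Zip α} (f : F) (o : Op α)
    (h : Function.update z f (o.app d (z f)) = z') : Run d (opP f o) ⟨m, z⟩ 1 ⟨m, z'⟩ := by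
  subst h
  exact Run.prim _ _

theorem run_nopP (m : M) (z : F → Zip α) :
    Run d (nopP : Prog M F α) ⟨m, z⟩ 1 ⟨m, z⟩ := Run.prim _ _

theorem _root_.Vale.Agent.P338.R2.H898.Prog.Run.congr {p : Prog M F α} {s s' t t' : Store M F α} {n : ℕ}
    (h : Run d p s n t) (hs : s = s') (ht : t = t') : Run d p s' n t' := hs ▸ ht ▸ h

/-- The file with contents `w` and the head at position `p`. -/
def atp (w : List α) (p : ℕ) : Zip α := ⟨(w.take p).reverse, w.drop p⟩

theorem atp_zero (w : List α) : atp w 0 = ⟨[], w⟩ := by simp [atp]

theorem atp_peek (w : List α) (p : ℕ) : (atp w p).peek = w[p]? := by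
  unfold atp Zip.peek
  simp

theorem atp_r_head (w : List α) (p : ℕ) : (atp w p).r.head? = w[p]? := by
  unfold atp
  simp

theorem right_atp (w : List α) (p : ℕ) (h : p < w.length) :
    Op.app d .right (atp w p) = atp w (p + 1) := by
  have h1 : (w.take (p + 1)).reverse = w[p] :: (w.take p).reverse := by
    rw [List.take_add_one, List.getElem?_eq_getElem h]
    simp
  unfold atp
  rw [h1, List.drop_eq_getElem_cons h]
  rfl

theorem rew_atp (w : List α) (p : ℕ) : Op.app d .rew (atp w p) = atp w 0 := by
  unfold atp
  simp [Op.app]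

theorem atp_full (w : List α) (p : ℕ) : (atp w p).full = w := by
  simp [atp, Zip.full]

/-- Run `p` once for every symbol of the file `f` (from the head on), then rewind `f`. -/
def forR (f : F) (p : Prog M F α) : Prog M F α :=
  .seq (.loop (fun _ x => (x f).isSome) (.seq p (opP f .right))) (opP f .rew)

/-- Rule for `forR`. `I i` are the files after `i` iterations, `J i` the files before the head
of `f` moves. -/
theorem run_forR (m : M) (f : F) (p : Prog M F α) (w : List α) (I : ℕ → F → Zip α) (t : ℕ)
    (hf : ∀ i ≤ w.length, I i f = atp w i)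
    (hp : ∀ i < w.length, Run d p ⟨m, I i⟩ t ⟨m, Function.update (I (i + 1)) f (atp w i)⟩)
    {z z' : F → Zip α} (hz : z = I 0) (hz' : z' = Function.update (I w.length) f (atp w 0)) :
    Run d (forR f p) ⟨m, z⟩ (w.length * (t + 2) + 2) ⟨m, z'⟩ := by
  subst hz hz'
  have hloop := Run.loop_const (d := d) (c := fun (_ : M) (x : F → Option α) => (x f).isSome)
    (p := .seq p (opP f .right)) w.length (fun i => ⟨m, I i⟩) (t + 1) (fun i hi => by
      simp only [Store.reads]
      rw [hf i hi.le, atp_peek]
      simp [hi]) (by
      simp only [Store.reads]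
      rw [hf _ le_rfl, atp_peek]
      simp) (fun i hi => by
      refine Run.seq (hp i hi) (run_opP m f .right ?_)
      rw [Function.update_self, Function.update_idem, right_atp w i hi, ← hf (i + 1) hi,
        Function.update_eq_self])
  refine (Run.seq hloop (run_opP m f .rew ?_)).mono (le_of_eq (by ring))
  rw [hf _ le_rfl, rew_atp]

/-- Append a symbol to a file whose head is at the end. -/
def emit (f : F) (a : α) : Prog M F α := .seq (opP f (.write a)) (opP f .right)

theorem run_emit (m : M) (f : F) (a : α) {z z' : F → Zip α} {l : List α}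
    (h : z f = ⟨l, []⟩) (h' : z' = Function.update z f ⟨a :: l, []⟩) :
    Run d (emit f a) ⟨m, z⟩ 2 ⟨m, z'⟩ := by
  subst h'
  refine Run.seq (run_opP m f (.write a) rfl) (run_opP m f .right ?_)
  rw [Function.update_self, Function.update_idem, h]
  rfl

/-- Append the symbol under the head of `g` to the file `f`. -/
def copyS (g f : F) : Prog M F α :=
  .seq (.prim fun m x => (m, (x g).map fun a => (f, Op.write a))) (opP f .right)

theorem run_copyS (m : M) (g f : F) (a : α) {z z' : F → Zip α} {l : List α}
    (h : z f = ⟨l, []⟩) (hg : (z g).peek = some a)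
    (h' : z' = Function.update z f ⟨a :: l, []⟩) :
    Run d (copyS g f) ⟨m, z⟩ 2 ⟨m, z'⟩ := by
  subst h'
  refine Run.seq (Run.prim' (s' := ⟨m, Function.update z f ⟨l, [a]⟩⟩) ?_)
    (run_opP m f .right ?_)
  · simp only [Store.reads]
    rw [hg]
    simp only [Option.map_some, appAct]
    rw [h]
    rfl
  · rw [Function.update_self, Function.update_idem]
    rfl

end Vale.Agent.P338.R2.H207
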