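import Vale.Agent.P338.R2.H207.Grow

/-!
Filling the padded array, and the complete input phase.
-/

namespace Vale.Agent.P338.R2.H207

open Vale.Agent.P338.R2.H898
open Prog

variable {M α : Type} {d : α} [DecidableEq α]

/-- Copy and pad one row. -/
def fillRow (hash zero : α) : Prog M PF α :=
  .seq (forR .w2 (.ite (fun _ x => (x .fin).isSome && decide (x .fin ≠ some hash))
    (.seq (copyS .fin .dat) (opP .fin .right)) (emit .dat zero)))
    (.ite (fun _ x => decide (x .fin = some hash)) (opP .fin .right) nopP)

/-- Copy and pad the whole array. -/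
def fill (hash zero : α) : Prog M PF α := forR .w (fillRow hash zero)

/-- The symbols of a row of the padded array. -/
def rowSym (enc : Letter → α) {r s : ℕ} (N : Fin r → Fin s → Bool) (i n : ℕ) : List α :=
  (List.range n).map fun j => enc (bitL (extM N i j))

theorem rowSym_succ (enc : Letter → α) {r s : ℕ} (N : Fin r → Fin s → Bool) (i n : ℕ) :
    rowSym enc N i (n + 1) = rowSym enc N i n ++ [enc (bitL (extM N i n))] := by
  simp [rowSym, List.range_succ]

/-- The state during the filling. -/
def fillSt (one : α) (W : List α) (z1 z2 ze : Zip α) (n iw iw2 p : ℕ) (o : List α) :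
    PF → Zip α :=
  pst (atp W p) ⟨o.reverse, []⟩ z1 z2 (rat one n iw) (rat one n iw2) ze

theorem run_fillRow (m : M) (enc : Letter → α) (henc : Function.Injective enc) (one : α)
    {r s : ℕ} (hr : 1 ≤ r) (N : Fin r → Fin s → Bool) (z1 z2 ze : Zip α) (n iw i : ℕ)
    (hs : s ≤ n) (o : List α) :
    Run d (fillRow (enc .hash) (enc .zero))
      ⟨m, fillSt one ((matWord N).map enc) z1 z2 ze n iw 0 (min (i * (s + 1)) (r * (s + 1) - 1)) o⟩
      (n * 6 + 4)
      ⟨m, fillSt one ((matWord N).map enc) z1 z2 ze n iw 0
        (min ((i + 1) * (s + 1)) (r * (s + 1) - 1)) (o ++ rowSym enc N i n)⟩ := by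
  have hlen := word_length enc hr N
  have hrs : s + 1 ≤ r * (s + 1) := by
    have : 1 * (s + 1) ≤ r * (s + 1) := Nat.mul_le_mul_right _ hr
    omega
  set W := (matWord N).map enc with hW
  -- the position of the input head during the row
  by_cases hir : i < r
  · have hi1 : (i + 1) * (s + 1) ≤ r * (s + 1) := Nat.mul_le_mul_right _ hir
    have hi2 : (i + 1) * (s + 1) = i * (s + 1) + (s + 1) := by ring
    have hget : ∀ j < s, W[i * (s + 1) + j]? = some (enc (bitL (extM N i j))) := by
      intro j hj
      rw [hW, word_get enc hr N _ (by omega)]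
      have h1 : ¬ (s + 1) ∣ (i * (s + 1) + j + 1) := by
        intro h
        have h2 : (s + 1) ∣ (j + 1) := by
          rw [add_assoc] at h
          exact (Nat.dvd_add_right (Nat.dvd_mul_left _ _)).1 h
        have := Nat.le_of_dvd (by omega) h2
        omega
      have h3 : (i * (s + 1) + j) / (s + 1) = i := by
        rw [mul_comm, Nat.mul_add_div (by omega), Nat.div_eq_of_lt (by omega), add_zero]
      have h4 : (i * (s + 1) + j) % (s + 1) = j := by
        rw [mul_comm, Nat.mul_add_mod, Nat.mod_eq_of_lt (by omega)]
      rw [if_neg h1, h3, h4]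
    have hend : W[i * (s + 1) + s]? = if i + 1 < r then some (enc .hash) else none := by
      by_cases h : i + 1 < r
      · have : (i + 1 + 1) * (s + 1) ≤ r * (s + 1) := Nat.mul_le_mul_right _ h
        have h5 : (i + 1 + 1) * (s + 1) = i * (s + 1) + (s + 1) + (s + 1) := by ring
        rw [if_pos h, hW, word_get enc hr N _ (by omega), if_pos]
        exact ⟨i + 1, by ring⟩
      · have : i + 1 = r := by omega
        rw [if_neg h, List.getElem?_eq_none]
        rw [← this] at hlen
        omega
    have key : Run d (forR .w2 (.ite (fun _ x => (x .fin).isSome &&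
        decide (x .fin ≠ some (enc .hash)))
        (.seq (copyS .fin .dat) (opP .fin .right)) (emit .dat (enc .zero))) : Prog M PF α)
        ⟨m, fillSt one W z1 z2 ze n iw 0 (min (i * (s + 1)) (r * (s + 1) - 1)) o⟩
        ((List.replicate n one).length * (4 + 2) + 2)
        ⟨m, fillSt one W z1 z2 ze n iw 0 (i * (s + 1) + s) (o ++ rowSym enc N i n)⟩ := by
      refine run_forR m PF.w2 _ (List.replicate n one)
        (fun j => fillSt one W z1 z2 ze n iw j (i * (s + 1) + min j s) (o ++ rowSym enc N i j))
        4 (fun j _ => rfl) (fun j hj => ?_) ?_ ?_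
      · have e0 : ∀ zz : PF → Zip α, Function.update (fillSt one W z1 z2 ze n iw (j + 1)
            (i * (s + 1) + min (j + 1) s) (o ++ rowSym enc N i (j + 1))) .w2
            (atp (List.replicate n one) j) = fillSt one W z1 z2 ze n iw j
            (i * (s + 1) + min (j + 1) s) (o ++ rowSym enc N i (j + 1)) := by
          intro _
          funext f
          cases f <;> simp [fillSt, pst, rat]
        rw [e0 (fun _ => z1)]
        by_cases hjs : j < s
        · rw [min_eq_left hjs.le, min_eq_left (show j + 1 ≤ s from hjs)]
          have hread : Store.reads (⟨m, fillSt one W z1 z2 ze n iw j (i * (s + 1) + j)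
              (o ++ rowSym enc N i j)⟩ : Store M PF α) .fin =
              some (enc (bitL (extM N i j))) := by
            simp only [Store.reads, fillSt, pst]
            rw [atp_peek, hget j hjs]
          have c1 : Run d (copyS .fin .dat : Prog M PF α)
              ⟨m, fillSt one W z1 z2 ze n iw j (i * (s + 1) + j) (o ++ rowSym enc N i j)⟩ 2
              ⟨m, fillSt one W z1 z2 ze n iw j (i * (s + 1) + j)
                (o ++ rowSym enc N i (j + 1))⟩ := by
            refine run_copyS m PF.fin PF.dat _ rfl hread ?_
            funext f
            cases f <;> simp [fillSt, pst, rowSym_succ]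
          have c2 : Run d (opP .fin .right : Prog M PF α)
              ⟨m, fillSt one W z1 z2 ze n iw j (i * (s + 1) + j)
                (o ++ rowSym enc N i (j + 1))⟩ 1
              ⟨m, fillSt one W z1 z2 ze n iw j (i * (s + 1) + (j + 1))
                (o ++ rowSym enc N i (j + 1))⟩ := by
            refine run_opP m PF.fin .right ?_
            funext f
            cases f <;> simp [fillSt, pst, right_atp W (i * (s + 1) + j) (by omega), add_assoc]
          exact Run.iteT (by simp [hread, bit_ne_hash henc]) (Run.seq c1 c2)
        · rw [min_eq_right (by omega), min_eq_right (by omega)]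
          have hread : Store.reads (⟨m, fillSt one W z1 z2 ze n iw j (i * (s + 1) + s)
              (o ++ rowSym enc N i j)⟩ : Store M PF α) .fin =
              if i + 1 < r then some (enc .hash) else none := by
            simp only [Store.reads, fillSt, pst]
            rw [atp_peek, hend]
          have c1 : Run d (emit .dat (enc .zero) : Prog M PF α)
              ⟨m, fillSt one W z1 z2 ze n iw j (i * (s + 1) + s) (o ++ rowSym enc N i j)⟩ 2
              ⟨m, fillSt one W z1 z2 ze n iw j (i * (s + 1) + s)
                (o ++ rowSym enc N i (j + 1))⟩ := by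
            refine run_emit m PF.dat _ rfl ?_
            have hz : extM N i j = false := by
              simp [extM, hjs]
            funext f
            cases f <;> simp [fillSt, pst, rowSym_succ, hz, bitL]
          refine (Run.iteF ?_ c1).mono (by omega)
          rw [hread]
          by_cases h : i + 1 < r <;> simp [h]
      · have : min (i * (s + 1)) (r * (s + 1) - 1) = i * (s + 1) := by omega
        rw [this]
        simp [rowSym]
      · rw [List.length_replicate, min_eq_right hs]
        funext f
        cases f <;> simp [fillSt, pst, rat]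
    have hread : Store.reads (⟨m, fillSt one W z1 z2 ze n iw 0 (i * (s + 1) + s)
        (o ++ rowSym enc N i n)⟩ : Store M PF α) .fin =
        if i + 1 < r then some (enc .hash) else none := by
      simp only [Store.reads, fillSt, pst]
      rw [atp_peek, hend]
    rw [List.length_replicate] at key
    by_cases h : i + 1 < r
    · have : (i + 1 + 1) * (s + 1) ≤ r * (s + 1) := Nat.mul_le_mul_right _ h
      have h5 : (i + 1 + 1) * (s + 1) = i * (s + 1) + (s + 1) + (s + 1) := by ring
      have h6 : min ((i + 1) * (s + 1)) (r * (s + 1) - 1) = i * (s + 1) + s + 1 := by omega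
      rw [h6]
      have c2 : Run d (opP .fin .right : Prog M PF α)
          ⟨m, fillSt one W z1 z2 ze n iw 0 (i * (s + 1) + s) (o ++ rowSym enc N i n)⟩ 1
          ⟨m, fillSt one W z1 z2 ze n iw 0 (i * (s + 1) + s + 1) (o ++ rowSym enc N i n)⟩ := by
        refine run_opP m PF.fin .right ?_
        funext f
        cases f <;> simp [fillSt, pst, right_atp W (i * (s + 1) + s) (by omega)]
      exact (Run.seq key (Run.iteT (by simp [hread, h]) c2)).mono (by omega)
    · have h6 : min ((i + 1) * (s + 1)) (r * (s + 1) - 1) = i * (s + 1) + s := by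
        have : i + 1 = r := by omega
        rw [← this]
        omega
      rw [h6]
      exact (Run.seq key (Run.iteF (by simp [hread, h]) (run_nopP m _))).mono (by omega)
  · have hi1 : r * (s + 1) ≤ i * (s + 1) := Nat.mul_le_mul_right _ (by omega)
    have hi2 : (i + 1) * (s + 1) = i * (s + 1) + (s + 1) := by ring
    rw [show min (i * (s + 1)) (r * (s + 1) - 1) = r * (s + 1) - 1 by omega,
      show min ((i + 1) * (s + 1)) (r * (s + 1) - 1) = r * (s + 1) - 1 by omega]
    have hread : ∀ j o, Store.reads (⟨m, fillSt one W z1 z2 ze n iw j (r * (s + 1) - 1) o⟩ :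
        Store M PF α) .fin = none := by
      intro j o
      simp only [Store.reads, fillSt, pst]
      rw [atp_peek, List.getElem?_eq_none (by omega)]
    have key : Run d (forR .w2 (.ite (fun _ x => (x .fin).isSome &&
        decide (x .fin ≠ some (enc .hash)))
        (.seq (copyS .fin .dat) (opP .fin .right)) (emit .dat (enc .zero))) : Prog M PF α)
        ⟨m, fillSt one W z1 z2 ze n iw 0 (r * (s + 1) - 1) o⟩
        ((List.replicate n one).length * (3 + 2) + 2)
        ⟨m, fillSt one W z1 z2 ze n iw 0 (r * (s + 1) - 1) (o ++ rowSym enc N i n)⟩ := by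
      refine run_forR m PF.w2 _ (List.replicate n one)
        (fun j => fillSt one W z1 z2 ze n iw j (r * (s + 1) - 1) (o ++ rowSym enc N i j))
        3 (fun j _ => rfl) (fun j hj => ?_) ?_ ?_
      · have c1 : Run d (emit .dat (enc .zero) : Prog M PF α)
            ⟨m, fillSt one W z1 z2 ze n iw j (r * (s + 1) - 1) (o ++ rowSym enc N i j)⟩ 2
            ⟨m, fillSt one W z1 z2 ze n iw j (r * (s + 1) - 1)
              (o ++ rowSym enc N i (j + 1))⟩ := by
          refine run_emit m PF.dat _ rfl ?_
          have hz : extM N i j = false := by
            simp [extM, hir]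
          funext f
          cases f <;> simp [fillSt, pst, rowSym_succ, hz, bitL]
        refine (Run.iteF ?_ c1).congr rfl ?_
        · rw [hread]
          simp
        · congr 1
          funext f
          cases f <;> simp [fillSt, pst, rat]
      · simp [rowSym]
      · rw [List.length_replicate]
        funext f
        cases f <;> simp [fillSt, pst, rat]
    rw [List.length_replicate] at key
    exact (Run.seq key (Run.iteF (by simp [hread]) (run_nopP m _))).mono (by omega)

theorem run_fill (m : M) (enc : Letter → α) (henc : Function.Injective enc) (one : α)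
    {r s : ℕ} (hr : 1 ≤ r) (N : Fin r → Fin s → Bool) (z1 z2 ze : Zip α) (n : ℕ)
    (hs : s ≤ n) (hrn : r ≤ n) (hn : 1 ≤ n) :
    Run d (fill (enc .hash) (enc .zero))
      ⟨m, fillSt one ((matWord N).map enc) z1 z2 ze n 0 0 0 []⟩
      (n * (n * 6 + 6) + 2)
      ⟨m, fillSt one ((matWord N).map enc) z1 z2 ze n 0 0 (r * (s + 1) - 1)
        ((List.range n).flatMap fun i => rowSym enc N i n)⟩ := by
  have key := run_forR (d := d) m PF.w (fillRow (enc .hash) (enc .zero)) (List.replicate n one)
    (fun i => fillSt one ((matWord N).map enc) z1 z2 ze n i 0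
      (min (i * (s + 1)) (r * (s + 1) - 1)) ((List.range i).flatMap fun i => rowSym enc N i n))
    (n * 6 + 4) (fun i _ => rfl) (fun i hi => ?_) rfl rfl
  · rw [List.length_replicate] at key
    refine (key.mono (by simp)).congr ?_ ?_
    · simp
    · have h1 : r * (s + 1) ≤ n * (s + 1) := Nat.mul_le_mul_right _ hrn
      have h2 : min (n * (s + 1)) (r * (s + 1) - 1) = r * (s + 1) - 1 := by omega
      rw [h2]
      congr 1
      funext f
      cases f <;> simp [fillSt, pst, rat]
  · refine (run_fillRow (d := d) m enc henc one hr N z1 z2 ze n i i hs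
      ((List.range i).flatMap fun i => rowSym enc N i n)).congr rfl ?_
    congr 1
    funext f
    cases f <;> simp [fillSt, pst, rat, List.range_succ]

end Vale.Agent.P338.R2.H207
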