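import Vale.Agent.P338.R2.H207.Parse

/-!
The width of the padded array.
-/

namespace Vale.Agent.P338.R2.H207

open Vale.Agent.P338.R2.H898
open Prog

variable {M α : Type} {d : α}

/-- Move right unless the head is at the end. -/
def stepR {F : Type} (f : F) : Prog M F α :=
  .prim fun m x => (m, if (x f).isSome then some (f, .right) else none)

theorem rat_peek (one : α) (n p : ℕ) : (rat one n p).peek = if p < n then some one else none := by
  rw [rat, atp_peek, List.getElem?_replicate]

theorem right_rat (one : α) (n p : ℕ) (h : p < n) :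
    Op.app d .right (rat one n p) = rat one n (p + 1) := by
  rw [rat, right_atp _ _ (by simpa using h)]
  rfl

theorem run_stepR {F : Type} [DecidableEq F] (m : M) (one : α) (f : F) (n k : ℕ)
    {z z' : F → Zip α} (h : z f = rat one n (min k n))
    (h' : z' = Function.update z f (rat one n (min (k + 1) n))) :
    Run d (stepR f) ⟨m, z⟩ 1 ⟨m, z'⟩ := by
  subst h'
  apply Run.prim'
  have h2 : Store.reads (⟨m, z⟩ : Store M F α) f = if min k n < n then some one else none := by
    simp only [Store.reads]
    rw [h, rat_peek]
  by_cases hk : k < n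
  · rw [if_pos (by omega)] at h2
    simp only [h2, Option.isSome_some, if_true, appAct]
    rw [h, min_eq_left hk.le, min_eq_left (show k + 1 ≤ n from hk), right_rat one n k hk]
  · rw [if_neg (by omega)] at h2
    simp only [h2, Option.isSome_none, Bool.false_eq_true, if_false, appAct]
    congr 1
    rw [min_eq_right (by omega)] at h
    rw [min_eq_right (by omega), ← h, Function.update_eq_self]

/-- Copy the ruler `w` to the empty file `w2`. -/
def cpW (one : α) : Prog M PF α :=
  .seq (opP .w .rew) (.loop (fun _ x => (x .w).isSome) (.seq (emit .w2 one) (opP .w .right)))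

/-- Double the ruler `w`. -/
def dbl (one : α) : Prog M PF α :=
  .seq (cpW one) (.seq (opP .w2 .rew)
    (.seq (.loop (fun _ x => (x .w2).isSome) (.seq (emit .w one)
      (.seq (stepR .n1) (.seq (stepR .n2) (opP .w2 .right)))))
      (.seq (opP .w2 .rew) (.seq (opP .w2 .trunc) (emit .el one)))))

theorem run_cpW (m : M) (one : α) (zf zd z1 z2 ze : Zip α) (n p : ℕ) :
    Run d (cpW one) ⟨m, pst zf zd z1 z2 (rat one n p) ⟨[], []⟩ ze⟩ (n * 4 + 2)
      ⟨m, pst zf zd z1 z2 (rat one n n) (up one n) ze⟩ := by
  have c1 : Run d (opP .w .rew : Prog M PF α)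
      ⟨m, pst zf zd z1 z2 (rat one n p) ⟨[], []⟩ ze⟩ 1
      ⟨m, pst zf zd z1 z2 (rat one n 0) (up one 0) ze⟩ := by
    refine run_opP m PF.w .rew ?_
    funext f
    cases f <;> simp [pst, up, rat, rew_atp]
  refine (Run.seq c1 (Run.loop_const (d := d) n
    (fun i => ⟨m, pst zf zd z1 z2 (rat one n i) (up one i) ze⟩) 3 (fun i hi => ?_) ?_
    (fun i hi => ?_))).mono (by omega)
  · simp only [Store.reads, pst]
    rw [rat_peek]
    simp [hi]
  · simp only [Store.reads, pst]
    rw [rat_peek]
    simp
  · have c1 : Run d (emit .w2 one : Prog M PF α)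
        ⟨m, pst zf zd z1 z2 (rat one n i) (up one i) ze⟩ 2
        ⟨m, pst zf zd z1 z2 (rat one n i) (up one (i + 1)) ze⟩ := by
      refine run_emit m PF.w2 one rfl ?_
      funext f
      cases f <;> simp [pst, up, List.replicate_succ]
    have c2 : Run d (opP .w .right : Prog M PF α)
        ⟨m, pst zf zd z1 z2 (rat one n i) (up one (i + 1)) ze⟩ 1
        ⟨m, pst zf zd z1 z2 (rat one n (i + 1)) (up one (i + 1)) ze⟩ := by
      refine run_opP m PF.w .right ?_
      funext f
      cases f <;> simp [pst, right_rat one n i hi]
    exact Run.seq c1 c2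

theorem run_dbl (m : M) (one : α) (zf zd : Zip α) (r s n e : ℕ) :
    Run d (dbl one)
      ⟨m, pst zf zd (rat one r (min n r)) (rat one s (min n s)) (up one n) ⟨[], []⟩ (up one e)⟩
      (n * 10 + 9)
      ⟨m, pst zf zd (rat one r (min (2 * n) r)) (rat one s (min (2 * n) s)) (up one (2 * n))
        ⟨[], []⟩ (up one (e + 1))⟩ := by
  have c0 : Run d (cpW one : Prog M PF α)
      ⟨m, pst zf zd (rat one r (min n r)) (rat one s (min n s)) (up one n) ⟨[], []⟩ (up one e)⟩
      (n * 4 + 2)
      ⟨m, pst zf zd (rat one r (min n r)) (rat one s (min n s)) (up one n) (up one n)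
        (up one e)⟩ := by
    have := run_cpW (d := d) m one zf zd (rat one r (min n r)) (rat one s (min n s)) (up one e) n n
    rwa [← up_eq] at this
  have c1 : Run d (opP .w2 .rew : Prog M PF α)
      ⟨m, pst zf zd (rat one r (min n r)) (rat one s (min n s)) (up one n) (up one n)
        (up one e)⟩ 1
      ⟨m, pst zf zd (rat one r (min (n + 0) r)) (rat one s (min (n + 0) s)) (up one (n + 0))
        (rat one n 0) (up one e)⟩ := by
    refine run_opP m PF.w2 .rew ?_
    funext f
    cases f <;> simp [pst, rat, atp_zero, rew_up]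
  have c2 := Run.loop_const (d := d) (c := fun (_ : M) (x : PF → Option α) => (x .w2).isSome)
    (p := .seq (emit .w one) (.seq (stepR .n1) (.seq (stepR .n2) (opP .w2 .right)))) n
    (fun i => ⟨m, pst zf zd (rat one r (min (n + i) r)) (rat one s (min (n + i) s))
      (up one (n + i)) (rat one n i) (up one e)⟩) 5 (fun i hi => by
      simp only [Store.reads, pst]
      rw [rat_peek]
      simp [hi]) (by
      simp only [Store.reads, pst]
      rw [rat_peek]
      simp) (fun i hi => by
      have b1 : Run d (emit .w one : Prog M PF α)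
          ⟨m, pst zf zd (rat one r (min (n + i) r)) (rat one s (min (n + i) s))
            (up one (n + i)) (rat one n i) (up one e)⟩ 2
          ⟨m, pst zf zd (rat one r (min (n + i) r)) (rat one s (min (n + i) s))
            (up one (n + (i + 1))) (rat one n i) (up one e)⟩ := by
        refine run_emit m PF.w one rfl ?_
        funext f
        cases f <;> simp [pst, up, List.replicate_succ, ← add_assoc]
      have b2 : Run d (stepR .n1 : Prog M PF α)
          ⟨m, pst zf zd (rat one r (min (n + i) r)) (rat one s (min (n + i) s))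
            (up one (n + (i + 1))) (rat one n i) (up one e)⟩ 1
          ⟨m, pst zf zd (rat one r (min (n + i + 1) r)) (rat one s (min (n + i) s))
            (up one (n + (i + 1))) (rat one n i) (up one e)⟩ := by
        refine run_stepR m one PF.n1 r (n + i) rfl ?_
        funext f
        cases f <;> simp [pst]
      have b3 : Run d (stepR .n2 : Prog M PF α)
          ⟨m, pst zf zd (rat one r (min (n + i + 1) r)) (rat one s (min (n + i) s))
            (up one (n + (i + 1))) (rat one n i) (up one e)⟩ 1
          ⟨m, pst zf zd (rat one r (min (n + i + 1) r)) (rat one s (min (n + i + 1) s))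
            (up one (n + (i + 1))) (rat one n i) (up one e)⟩ := by
        refine run_stepR m one PF.n2 s (n + i) rfl ?_
        funext f
        cases f <;> simp [pst]
      have b4 : Run d (opP .w2 .right : Prog M PF α)
          ⟨m, pst zf zd (rat one r (min (n + i + 1) r)) (rat one s (min (n + i + 1) s))
            (up one (n + (i + 1))) (rat one n i) (up one e)⟩ 1
          ⟨m, pst zf zd (rat one r (min (n + (i + 1)) r)) (rat one s (min (n + (i + 1)) s))
            (up one (n + (i + 1))) (rat one n (i + 1)) (up one e)⟩ := by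
        refine run_opP m PF.w2 .right ?_
        funext f
        cases f <;> simp [pst, right_rat one n i hi, add_assoc]
      exact Run.seq b1 (Run.seq b2 (Run.seq b3 b4)))
  have c3 : Run d (opP .w2 .rew : Prog M PF α)
      ⟨m, pst zf zd (rat one r (min (n + n) r)) (rat one s (min (n + n) s)) (up one (n + n))
        (rat one n n) (up one e)⟩ 1
      ⟨m, pst zf zd (rat one r (min (n + n) r)) (rat one s (min (n + n) s)) (up one (n + n))
        (rat one n 0) (up one e)⟩ := by
    refine run_opP m PF.w2 .rew ?_
    funext f
    cases f <;> simp [pst, rat, rew_atp]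
  have c4 : Run d (opP .w2 .trunc : Prog M PF α)
      ⟨m, pst zf zd (rat one r (min (n + n) r)) (rat one s (min (n + n) s)) (up one (n + n))
        (rat one n 0) (up one e)⟩ 1
      ⟨m, pst zf zd (rat one r (min (n + n) r)) (rat one s (min (n + n) s)) (up one (n + n))
        ⟨[], []⟩ (up one e)⟩ := by
    refine run_opP m PF.w2 .trunc ?_
    funext f
    cases f <;> simp [pst, rat, atp_zero, Op.app]
  have c5 : Run d (emit .el one : Prog M PF α)
      ⟨m, pst zf zd (rat one r (min (n + n) r)) (rat one s (min (n + n) s)) (up one (n + n))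
        ⟨[], []⟩ (up one e)⟩ 2
      ⟨m, pst zf zd (rat one r (min (2 * n) r)) (rat one s (min (2 * n) s)) (up one (2 * n))
        ⟨[], []⟩ (up one (e + 1))⟩ := by
    refine run_emit m PF.el one rfl ?_
    rw [two_mul]
    funext f
    cases f <;> simp [pst, up, List.replicate_succ]
  exact (Run.seq c0 (Run.seq c1 (Run.seq c2 (Run.seq c3 (Run.seq c4 c5))))).mono (by omega)

/-- Compute the width. -/
def grow (one : α) : Prog M PF α :=
  .loop (fun _ x => (x .n1).isSome || (x .n2).isSome) (dbl one)

theorem run_grow (m : M) (one : α) (zf zd : Zip α) (r s : ℕ) :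
    Run d (grow one)
      ⟨m, pst zf zd (rat one r (min 1 r)) (rat one s (min 1 s)) (up one 1) ⟨[], []⟩ (up one 0)⟩
      (20 * 2 ^ Nat.clog 2 (max r s))
      ⟨m, pst zf zd (rat one r r) (rat one s s) (up one (2 ^ Nat.clog 2 (max r s)))
        ⟨[], []⟩ (up one (Nat.clog 2 (max r s)))⟩ := by
  set l := Nat.clog 2 (max r s) with hl
  have hle : max r s ≤ 2 ^ l := Nat.le_pow_clog (by norm_num) _
  have hlt : ∀ i < l, 2 ^ i < max r s := fun i hi => (Nat.lt_clog_iff_pow_lt (by norm_num)).1 hi
  have key := Run.loop (d := d) (c := fun (_ : M) (x : PF → Option α) =>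
      (x .n1).isSome || (x .n2).isSome) (p := dbl one) l
    (fun i => ⟨m, pst zf zd (rat one r (min (2 ^ i) r)) (rat one s (min (2 ^ i) s))
      (up one (2 ^ i)) ⟨[], []⟩ (up one i)⟩) (fun i => 2 ^ i * 10 + 9) (fun i hi => ?_) ?_
      (fun i hi => ?_)
  · refine (key.mono ?_).congr ?_ ?_
    · have h1 : ∀ n : ℕ, (∑ i ∈ Finset.range n, (2 ^ i * 10 + 9 + 1)) + 20 ≤ 20 * 2 ^ n := by
        intro n
        induction n with
        | zero => simp
        | succ n ih =>
          rw [Finset.sum_range_succ]
          have : 1 ≤ 2 ^ n := Nat.one_le_two_pow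
          rw [pow_succ]
          omega
      have := h1 l
      omega
    · simp
    · rw [min_eq_right ((le_max_left r s).trans hle), min_eq_right ((le_max_right r s).trans hle)]
  · simp only [Store.reads, pst, rat_peek]
    have := hlt i hi
    rcases lt_max_iff.1 this with h | h
    · rw [if_pos (by omega)]
      rfl
    · rw [if_pos (show min (2 ^ i) s < s by omega)]
      simp
  · simp only [Store.reads, pst, rat_peek]
    have h1 := (le_max_left r s).trans hle
    have h2 := (le_max_right r s).trans hle
    rw [if_neg (by omega), if_neg (by omega)]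
    rfl
  · refine (run_dbl (d := d) m one zf zd r s (2 ^ i) i).congr rfl ?_
    rw [pow_succ, mul_comm (2 ^ i) 2]

end Vale.Agent.P338.R2.H207
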