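import Vale.Agent.P338.R2.H207.Unpad

/-!
The input phase: from the input word to the padded array and the rulers.
-/

namespace Vale.Agent.P338.R2.H207

open Vale.Agent.P338.R2.H898
open Prog

/-- The input word, as a list of file symbols: the symbol at position `p`. -/
theorem word_get {α : Type} (enc : Letter → α) {r s : ℕ} (hr : 1 ≤ r) (M : Fin r → Fin s → Bool) (p : ℕ)
    (hp : p < r * (s + 1) - 1) :
    ((matWord M).map enc)[p]? = some (if (s + 1) ∣ (p + 1) then enc .hash else
      enc (bitL (extM M (p / (s + 1)) (p % (s + 1))))) := by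
  have h2 : (List.ofFn fun (i : Fin r) => List.ofFn fun (j : Fin s) => bitL (M i j)).map
      (List.map enc) = (List.range r).map fun k => (List.range s).map fun j =>
        enc (bitL (extM M k j)) := by
    rw [List.map_ofFn]
    apply ofFn_eq_map
    intro k hk
    simp only [Function.comp_apply, List.map_ofFn]
    apply ofFn_eq_map
    intro j hj
    simp [extM, hj, hk]
  have h3 : (matWord M).map enc ++ [enc .hash] = (List.range r).flatMap fun k =>
      ((List.range s).map fun j => enc (bitL (extM M k j))) ++ [enc .hash] := by
    rw [matWord, map_intercalate, h2, intercalate_append]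
    · rw [List.flatMap_map]
    · simp
      omega
  have hlen : ((matWord M).map enc ++ [enc .hash]).length = r * (s + 1) := by
    rw [h3, length_flatMap_range (W := s + 1) (by simp)]
  have h4 : ((matWord M).map enc)[p]? = ((matWord M).map enc ++ [enc .hash])[p]? := by
    rw [List.getElem?_append_left]
    simp only [List.length_append, List.length_cons, List.length_nil] at hlen
    omega
  have hdm := Nat.div_add_mod p (s + 1)
  have hml : p % (s + 1) < s + 1 := Nat.mod_lt p (Nat.succ_pos s)
  have hpr : p / (s + 1) < r := by
    rw [Nat.div_lt_iff_lt_mul (by omega)]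
    omega
  have h5 : ((matWord M).map enc ++ [enc .hash])[p]? =
      (((List.range s).map fun j => enc (bitL (extM M (p / (s + 1)) j))) ++
        [enc .hash])[p % (s + 1)]? := by
    have h6 := drop_take_flatMap (n := r) (W := s + 1) (f := fun k =>
      ((List.range s).map fun j => enc (bitL (extM M k j))) ++ [enc .hash]) (by simp) hpr
      (r := s + 1) le_rfl
    rw [h3]
    have h7 := congrArg (fun x => x[p % (s + 1)]?) h6
    rw [List.getElem?_take_of_lt hml, List.getElem?_take_of_lt hml, List.getElem?_drop] at h7
    rw [← h7]
    congr 1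
    rw [mul_comm]
    exact hdm.symm
  rw [h4, h5]
  by_cases hd : (s + 1) ∣ (p + 1)
  · rw [if_pos hd]
    have h8 : p % (s + 1) = s := by
      have h9 : (s + 1) ∣ (p % (s + 1) + 1) := by
        have h10 : p + 1 = (s + 1) * (p / (s + 1)) + (p % (s + 1) + 1) := by omega
        rw [h10] at hd
        exact (Nat.dvd_add_right (Nat.dvd_mul_right _ _)).1 hd
      have := Nat.le_of_dvd (by omega) h9
      omega
    rw [h8, List.getElem?_append_right (by simp)]
    simp
  · rw [if_neg hd]
    have h8 : p % (s + 1) ≠ s := by
      intro h9
      apply hd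
      refine ⟨p / (s + 1) + 1, ?_⟩
      rw [mul_add, mul_one]
      omega
    have h9 : p % (s + 1) < s := by omega
    rw [List.getElem?_append_left (by simp only [List.length_map, List.length_range]; exact h9),
      List.getElem?_map, List.getElem?_range h9]
    rfl

theorem word_length {α : Type} (enc : Letter → α) {r s : ℕ} (hr : 1 ≤ r) (M : Fin r → Fin s → Bool) :
    ((matWord M).map enc).length = r * (s + 1) - 1 := by
  have h2 : (List.ofFn fun (i : Fin r) => List.ofFn fun (j : Fin s) => bitL (M i j)).map
      (List.map enc) = (List.range r).map fun k => (List.range s).map fun j =>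
        enc (bitL (extM M k j)) := by
    rw [List.map_ofFn]
    apply ofFn_eq_map
    intro k hk
    simp only [Function.comp_apply, List.map_ofFn]
    apply ofFn_eq_map
    intro j hj
    simp [extM, hj, hk]
  have h3 : (matWord M).map enc ++ [enc .hash] = (List.range r).flatMap fun k =>
      ((List.range s).map fun j => enc (bitL (extM M k j))) ++ [enc .hash] := by
    rw [matWord, map_intercalate, h2, intercalate_append]
    · rw [List.flatMap_map]
    · simp
      omega
  have hlen : ((matWord M).map enc ++ [enc .hash]).length = r * (s + 1) := by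
    rw [h3, length_flatMap_range (W := s + 1) (by simp)]
  simp only [List.length_append, List.length_cons, List.length_nil] at hlen
  omega

/-- The files of the input phase: the input, the array, the rulers of the numbers of rows and
columns, two rulers of the width of the array, the ruler of the logarithm of the width. -/
inductive PF
  | fin
  | dat
  | n1
  | n2
  | w
  | w2
  | el
  deriving DecidableEq

instance : Fintype PF := ⟨{.fin, .dat, .n1, .n2, .w, .w2, .el}, by intro x; cases x <;> simp⟩

variable {M α : Type} {d : α}

/-- The files. -/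
def pst (zf zd z1 z2 zw zw2 ze : Zip α) : PF → Zip α
  | .fin => zf
  | .dat => zd
  | .n1 => z1
  | .n2 => z2
  | .w => zw
  | .w2 => zw2
  | .el => ze

/-- A ruler with the head at the end. -/
def up (one : α) (n : ℕ) : Zip α := ⟨List.replicate n one, []⟩

/-- A ruler of length `n` with the head at position `p`. -/
def rat (one : α) (n p : ℕ) : Zip α := atp (List.replicate n one) p

theorem up_eq (one : α) (n : ℕ) : up one n = rat one n n := by
  simp [up, rat, atp]

theorem rew_up (one : α) (n : ℕ) : Op.app d .rew (up one n) = ⟨[], List.replicate n one⟩ := by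
  simp [up, Op.app]

theorem rew_rat (one : α) (n p : ℕ) : Op.app d .rew (rat one n p) = ⟨[], List.replicate n one⟩ := by
  rw [rat, rew_atp, atp_zero]

section scan

variable [DecidableEq α]

/-- Scan the first row. -/
def scan1 (hash one : α) : Prog M PF α :=
  .loop (fun _ x => (x .fin).isSome && decide (x .fin ≠ some hash))
    (.seq (emit .n2 one) (opP .fin .right))

/-- Scan the remaining rows. -/
def scan2 (hash one : α) : Prog M PF α :=
  .loop (fun _ x => (x .fin).isSome)
    (.seq (.ite (fun _ x => decide (x .fin = some hash)) (emit .n1 one) nopP) (opP .fin .right))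

theorem bit_ne_hash {enc : Letter → α} (henc : Function.Injective enc) (b : Bool) :
    enc (bitL b) ≠ enc .hash := by
  intro h
  have := henc h
  cases b <;> simp [bitL] at this

theorem run_scan1 (m : M) (enc : Letter → α) (henc : Function.Injective enc) (one : α)
    {r s : ℕ} (hr : 1 ≤ r) (N : Fin r → Fin s → Bool) (zd z1 zw zw2 ze : Zip α) :
    Run d (scan1 (enc .hash) one)
      ⟨m, pst (atp ((matWord N).map enc) 0) zd z1 (up one 0) zw zw2 ze⟩ (s * 4 + 1)
      ⟨m, pst (atp ((matWord N).map enc) s) zd z1 (up one s) zw zw2 ze⟩ := by
  have hlen := word_length enc hr N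
  have hrs : s ≤ r * (s + 1) - 1 := by
    have : 1 * (s + 1) ≤ r * (s + 1) := Nat.mul_le_mul_right _ hr
    omega
  refine (Run.loop_const (d := d) s (fun i => ⟨m, pst (atp ((matWord N).map enc) i) zd z1
    (up one i) zw zw2 ze⟩) 3 (fun i hi => ?_) ?_ (fun i hi => ?_)).mono (by omega)
  · have h1 : ¬ (s + 1) ∣ (i + 1) := fun h => by
      have := Nat.le_of_dvd (by omega) h
      omega
    have h2 : Store.reads (⟨m, pst (atp ((matWord N).map enc) i) zd z1
        (up one i) zw zw2 ze⟩ : Store M PF α) .fin = some (enc (bitL (extM N (i / (s + 1))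
          (i % (s + 1))))) := by
      simp only [Store.reads, pst]
      rw [atp_peek, word_get enc hr N i (by omega), if_neg h1]
    simp [h2, bit_ne_hash henc]
  · by_cases h : s < r * (s + 1) - 1
    · have h2 : Store.reads (⟨m, pst (atp ((matWord N).map enc) s) zd z1
          (up one s) zw zw2 ze⟩ : Store M PF α) .fin = some (enc .hash) := by
        simp only [Store.reads, pst]
        rw [atp_peek, word_get enc hr N s h]
        simp
      simp [h2]
    · have h2 : Store.reads (⟨m, pst (atp ((matWord N).map enc) s) zd z1
          (up one s) zw zw2 ze⟩ : Store M PF α) .fin = none := by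
        simp only [Store.reads, pst]
        rw [atp_peek, List.getElem?_eq_none (by omega)]
      simp [h2]
  · have c1 : Run d (emit .n2 one : Prog M PF α)
        ⟨m, pst (atp ((matWord N).map enc) i) zd z1 (up one i) zw zw2 ze⟩ 2
        ⟨m, pst (atp ((matWord N).map enc) i) zd z1 (up one (i + 1)) zw zw2 ze⟩ := by
      refine run_emit m PF.n2 one rfl ?_
      funext f
      cases f <;> simp [pst, up, List.replicate_succ]
    have c2 : Run d (opP .fin .right : Prog M PF α)
        ⟨m, pst (atp ((matWord N).map enc) i) zd z1 (up one (i + 1)) zw zw2 ze⟩ 1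
        ⟨m, pst (atp ((matWord N).map enc) (i + 1)) zd z1 (up one (i + 1)) zw zw2 ze⟩ := by
      refine run_opP m PF.fin .right ?_
      funext f
      cases f <;> simp [pst, right_atp ((matWord N).map enc) i (by omega)]
    exact Run.seq c1 c2

theorem run_scan2 (m : M) (enc : Letter → α) (henc : Function.Injective enc) (one : α)
    {r s : ℕ} (hr : 1 ≤ r) (N : Fin r → Fin s → Bool) (zd z2 zw zw2 ze : Zip α) :
    Run d (scan2 (enc .hash) one)
      ⟨m, pst (atp ((matWord N).map enc) s) zd (up one 1) z2 zw zw2 ze⟩
      ((r * (s + 1) - 1 - s) * 5 + 1)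
      ⟨m, pst (atp ((matWord N).map enc) (r * (s + 1) - 1)) zd (up one r) z2 zw zw2 ze⟩ := by
  have hlen := word_length enc hr N
  have hrs : s ≤ r * (s + 1) - 1 := by
    have : 1 * (s + 1) ≤ r * (s + 1) := Nat.mul_le_mul_right _ hr
    omega
  have key := Run.loop_const (d := d) (c := fun (_ : M) (x : PF → Option α) => (x .fin).isSome)
    (p := .seq (.ite (fun _ x => decide (x .fin = some (enc .hash))) (emit .n1 one) nopP)
      (opP .fin .right)) (r * (s + 1) - 1 - s)
    (fun i => ⟨m, pst (atp ((matWord N).map enc) (s + i)) zd (up one (1 + (s + i) / (s + 1)))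
      z2 zw zw2 ze⟩) 4 (fun i hi => ?_) ?_ (fun i hi => ?_)
  · refine (key.mono (by omega)).congr ?_ ?_
    · simp only [add_zero]
      rw [Nat.div_eq_of_lt (show s < s + 1 by omega)]
    · have h1 : s + (r * (s + 1) - 1 - s) = r * (s + 1) - 1 := by omega
      simp only [h1]
      have h2 : (r * (s + 1) - 1) / (s + 1) = r - 1 := by
        obtain ⟨r', rfl⟩ : ∃ r', r = r' + 1 := ⟨r - 1, by omega⟩
        have h3 : (r' + 1) * (s + 1) - 1 = (s + 1) * r' + s := by
          have : (r' + 1) * (s + 1) = (s + 1) * r' + (s + 1) := by ring
          omega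
        rw [h3, Nat.mul_add_div (by omega), Nat.div_eq_of_lt (by omega)]
        omega
      rw [h2, show 1 + (r - 1) = r by omega]
  · simp only [Store.reads, pst]
    rw [atp_peek, word_get enc hr N (s + i) (by omega)]
    simp
  · simp only [Store.reads, pst]
    rw [atp_peek, List.getElem?_eq_none (by omega)]
    simp
  · have c2 : Run d (opP .fin .right : Prog M PF α)
        ⟨m, pst (atp ((matWord N).map enc) (s + i)) zd (up one (1 + (s + (i + 1)) / (s + 1)))
          z2 zw zw2 ze⟩ 1
        ⟨m, pst (atp ((matWord N).map enc) (s + (i + 1))) zd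
          (up one (1 + (s + (i + 1)) / (s + 1))) z2 zw zw2 ze⟩ := by
      refine run_opP m PF.fin .right ?_
      funext f
      cases f <;> simp [pst, right_atp ((matWord N).map enc) (s + i) (by omega), add_assoc]
    have hsucc : (s + (i + 1)) / (s + 1) = (s + i) / (s + 1) +
        if (s + 1) ∣ (s + i + 1) then 1 else 0 := by
      rw [← add_assoc, Nat.succ_div]
    by_cases hd : (s + 1) ∣ (s + i + 1)
    · rw [if_pos hd] at hsucc
      have c1 : Run d (emit .n1 one : Prog M PF α)
          ⟨m, pst (atp ((matWord N).map enc) (s + i)) zd (up one (1 + (s + i) / (s + 1)))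
            z2 zw zw2 ze⟩ 2
          ⟨m, pst (atp ((matWord N).map enc) (s + i)) zd (up one (1 + (s + (i + 1)) / (s + 1)))
            z2 zw zw2 ze⟩ := by
        refine run_emit m PF.n1 one rfl ?_
        rw [hsucc]
        funext f
        cases f <;> simp [pst, up, ← List.replicate_succ, ← add_assoc]
      have h2 : Store.reads (⟨m, pst (atp ((matWord N).map enc) (s + i)) zd
          (up one (1 + (s + i) / (s + 1))) z2 zw zw2 ze⟩ : Store M PF α) .fin =
            some (enc .hash) := by
        simp only [Store.reads, pst]
        rw [atp_peek, word_get enc hr N (s + i) (by omega), if_pos hd]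
      exact (Run.seq (Run.iteT (by simp [h2]) c1) c2).mono (by omega)
    · rw [if_neg hd, add_zero] at hsucc
      rw [hsucc] at c2 ⊢
      have h2 : Store.reads (⟨m, pst (atp ((matWord N).map enc) (s + i)) zd
          (up one (1 + (s + i) / (s + 1))) z2 zw zw2 ze⟩ : Store M PF α) .fin =
            some (enc (bitL (extM N ((s + i) / (s + 1)) ((s + i) % (s + 1))))) := by
        simp only [Store.reads, pst]
        rw [atp_peek, word_get enc hr N (s + i) (by omega), if_neg hd]
      exact (Run.seq (Run.iteF (by simp [h2, bit_ne_hash henc]) (run_nopP m _)) c2).mono (by omega)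

end scan

end Vale.Agent.P338.R2.H207
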