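import Vale.Agent.P338.R2.H207.Fill

/-!
The complete input phase.
-/

namespace Vale.Agent.P338.R2.H207

open Vale.Agent.P338.R2.H898
open Prog

variable {M α : Type} {d : α} [DecidableEq α]

/-- The scanning of the input. -/
def parseA (enc : Letter → α) (one : α) : Prog M PF α :=
  .seq (opP .fin .rew) (.seq (scan1 (enc .hash) one) (.seq (emit .n1 one)
    (scan2 (enc .hash) one)))

theorem run_parseA (m : M) (enc : Letter → α) (henc : Function.Injective enc) (one : α)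
    {r s : ℕ} (hr : 1 ≤ r) (N : Fin r → Fin s → Bool) :
    Run d (parseA enc one)
      ⟨m, pst ⟨((matWord N).map enc).reverse, []⟩ ⟨[], []⟩ ⟨[], []⟩ ⟨[], []⟩ ⟨[], []⟩ ⟨[], []⟩ ⟨[], []⟩⟩
      (5 * (r * (s + 1)) + 5)
      ⟨m, pst (atp ((matWord N).map enc) (r * (s + 1) - 1)) ⟨[], []⟩ (up one r) (up one s)
        ⟨[], []⟩ ⟨[], []⟩ ⟨[], []⟩⟩ := by
  set W := (matWord N).map enc with hW
  have p1 : Run d (opP .fin .rew : Prog M PF α)
      ⟨m, pst ⟨W.reverse, []⟩ ⟨[], []⟩ ⟨[], []⟩ ⟨[], []⟩ ⟨[], []⟩ ⟨[], []⟩ ⟨[], []⟩⟩ 1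
      ⟨m, pst (atp W 0) ⟨[], []⟩ ⟨[], []⟩ (up one 0) ⟨[], []⟩ ⟨[], []⟩ ⟨[], []⟩⟩ := by
    refine run_opP m PF.fin .rew ?_
    funext f
    cases f <;> simp [pst, atp_zero, up, Op.app]
  have p2 := run_scan1 (d := d) m enc henc one hr N ⟨[], []⟩ ⟨[], []⟩ ⟨[], []⟩ ⟨[], []⟩ ⟨[], []⟩
  have p3 : Run d (emit .n1 one : Prog M PF α)
      ⟨m, pst (atp W s) ⟨[], []⟩ ⟨[], []⟩ (up one s) ⟨[], []⟩ ⟨[], []⟩ ⟨[], []⟩⟩ 2
      ⟨m, pst (atp W s) ⟨[], []⟩ (up one 1) (up one s) ⟨[], []⟩ ⟨[], []⟩ ⟨[], []⟩⟩ := by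
    refine run_emit m PF.n1 one rfl ?_
    funext f
    cases f <;> simp [pst, up]
  have p4 := run_scan2 (d := d) m enc henc one hr N ⟨[], []⟩ (up one s) ⟨[], []⟩ ⟨[], []⟩ ⟨[], []⟩
  have hrs : s + 1 ≤ r * (s + 1) := by
    have : 1 * (s + 1) ≤ r * (s + 1) := Nat.mul_le_mul_right _ hr
    omega
  exact (Run.seq p1 (Run.seq p2 (Run.seq p3 p4))).mono (by omega)

/-- The computation of the width. -/
def parseB (one : α) : Prog M PF α :=
  .seq (opP .n1 .rew) (.seq (opP .n2 .rew)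
    (.seq (stepR .n1) (.seq (stepR .n2) (.seq (emit .w one) (.seq (grow one) (cpW one))))))

theorem run_parseB (m : M) (one : α) (W : List α) (r s l : ℕ) (hl : l = Nat.clog 2 (max r s)) :
    Run d (parseB one)
      ⟨m, pst (atp W (r * (s + 1) - 1)) ⟨[], []⟩ (up one r) (up one s)
        ⟨[], []⟩ ⟨[], []⟩ ⟨[], []⟩⟩
      (24 * 2 ^ l + 8)
      ⟨m, pst (atp W (r * (s + 1) - 1)) ⟨[], []⟩ (rat one r r) (rat one s s) (up one (2 ^ l))
        (up one (2 ^ l)) (up one l)⟩ := by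
  have p5 : Run d (opP .n1 .rew : Prog M PF α)
      ⟨m, pst (atp W (r * (s + 1) - 1)) ⟨[], []⟩ (up one r) (up one s) ⟨[], []⟩ ⟨[], []⟩
        ⟨[], []⟩⟩ 1
      ⟨m, pst (atp W (r * (s + 1) - 1)) ⟨[], []⟩ (rat one r (min 0 r)) (up one s) ⟨[], []⟩
        ⟨[], []⟩ ⟨[], []⟩⟩ := by
    refine run_opP m PF.n1 .rew ?_
    funext f
    cases f <;> simp [pst, rew_up, rat, atp_zero]
  have p6 : Run d (opP .n2 .rew : Prog M PF α)
      ⟨m, pst (atp W (r * (s + 1) - 1)) ⟨[], []⟩ (rat one r (min 0 r)) (up one s) ⟨[], []⟩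
        ⟨[], []⟩ ⟨[], []⟩⟩ 1
      ⟨m, pst (atp W (r * (s + 1) - 1)) ⟨[], []⟩ (rat one r (min 0 r)) (rat one s (min 0 s))
        ⟨[], []⟩ ⟨[], []⟩ ⟨[], []⟩⟩ := by
    refine run_opP m PF.n2 .rew ?_
    funext f
    cases f <;> simp [pst, rew_up, rat, atp_zero]
  have p7 : Run d (stepR .n1 : Prog M PF α)
      ⟨m, pst (atp W (r * (s + 1) - 1)) ⟨[], []⟩ (rat one r (min 0 r)) (rat one s (min 0 s))
        ⟨[], []⟩ ⟨[], []⟩ ⟨[], []⟩⟩ 1
      ⟨m, pst (atp W (r * (s + 1) - 1)) ⟨[], []⟩ (rat one r (min (0 + 1) r))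
        (rat one s (min 0 s)) ⟨[], []⟩ ⟨[], []⟩ ⟨[], []⟩⟩ := by
    refine run_stepR m one PF.n1 r 0 rfl ?_
    funext f
    cases f <;> simp [pst]
  have p8 : Run d (stepR .n2 : Prog M PF α)
      ⟨m, pst (atp W (r * (s + 1) - 1)) ⟨[], []⟩ (rat one r (min (0 + 1) r))
        (rat one s (min 0 s)) ⟨[], []⟩ ⟨[], []⟩ ⟨[], []⟩⟩ 1
      ⟨m, pst (atp W (r * (s + 1) - 1)) ⟨[], []⟩ (rat one r (min (0 + 1) r))
        (rat one s (min (0 + 1) s)) ⟨[], []⟩ ⟨[], []⟩ ⟨[], []⟩⟩ := by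
    refine run_stepR m one PF.n2 s 0 rfl ?_
    funext f
    cases f <;> simp [pst]
  have p9 : Run d (emit .w one : Prog M PF α)
      ⟨m, pst (atp W (r * (s + 1) - 1)) ⟨[], []⟩ (rat one r (min (0 + 1) r))
        (rat one s (min (0 + 1) s)) ⟨[], []⟩ ⟨[], []⟩ ⟨[], []⟩⟩ 2
      ⟨m, pst (atp W (r * (s + 1) - 1)) ⟨[], []⟩ (rat one r (min 1 r))
        (rat one s (min 1 s)) (up one 1) ⟨[], []⟩ (up one 0)⟩ := by
    refine run_emit m PF.w one rfl ?_
    funext f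
    cases f <;> simp [pst, up]
  have p10 := run_grow (d := d) m one (atp W (r * (s + 1) - 1)) ⟨[], []⟩ r s
  rw [← hl] at p10
  have p11 := run_cpW (d := d) m one (atp W (r * (s + 1) - 1)) ⟨[], []⟩ (rat one r r)
    (rat one s s) (up one l) (2 ^ l) (2 ^ l)
  rw [← up_eq one (2 ^ l)] at p11
  exact (Run.seq p5 (Run.seq p6 (Run.seq p7 (Run.seq p8 (Run.seq p9
    (Run.seq p10 p11)))))).mono (by omega)

/-- Rewinding. -/
def parseC : Prog M PF α :=
  .seq (opP .fin .rew) (.seq (opP .n1 .rew) (.seq (opP .n2 .rew)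
    (.seq (opP .w .rew) (.seq (opP .w2 .rew) (opP .el .rew)))))

theorem run_parseC (m : M) (one : α) (W : List α) (r s l : ℕ) :
    Run d parseC
      ⟨m, pst (atp W (r * (s + 1) - 1)) ⟨[], []⟩ (rat one r r) (rat one s s) (up one (2 ^ l))
        (up one (2 ^ l)) (up one l)⟩
      6
      ⟨m, fillSt one W ⟨[], List.replicate r one⟩ ⟨[], List.replicate s one⟩
        ⟨[], List.replicate l one⟩ (2 ^ l) 0 0 0 []⟩ := by
  have p12 : Run d (opP .fin .rew : Prog M PF α)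
      ⟨m, pst (atp W (r * (s + 1) - 1)) ⟨[], []⟩ (rat one r r) (rat one s s) (up one (2 ^ l))
        (up one (2 ^ l)) (up one l)⟩ 1
      ⟨m, pst (atp W 0) ⟨[], []⟩ (rat one r r) (rat one s s) (up one (2 ^ l))
        (up one (2 ^ l)) (up one l)⟩ := by
    refine run_opP m PF.fin .rew ?_
    funext f
    cases f <;> simp [pst, rew_atp]
  have p13 : Run d (opP .n1 .rew : Prog M PF α)
      ⟨m, pst (atp W 0) ⟨[], []⟩ (rat one r r) (rat one s s) (up one (2 ^ l))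
        (up one (2 ^ l)) (up one l)⟩ 1
      ⟨m, pst (atp W 0) ⟨[], []⟩ ⟨[], List.replicate r one⟩ (rat one s s) (up one (2 ^ l))
        (up one (2 ^ l)) (up one l)⟩ := by
    refine run_opP m PF.n1 .rew ?_
    funext f
    cases f <;> simp [pst, rew_rat]
  have p14 : Run d (opP .n2 .rew : Prog M PF α)
      ⟨m, pst (atp W 0) ⟨[], []⟩ ⟨[], List.replicate r one⟩ (rat one s s) (up one (2 ^ l))
        (up one (2 ^ l)) (up one l)⟩ 1
      ⟨m, pst (atp W 0) ⟨[], []⟩ ⟨[], List.replicate r one⟩ ⟨[], List.replicate s one⟩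
        (up one (2 ^ l)) (up one (2 ^ l)) (up one l)⟩ := by
    refine run_opP m PF.n2 .rew ?_
    funext f
    cases f <;> simp [pst, rew_rat]
  have p15 : Run d (opP .w .rew : Prog M PF α)
      ⟨m, pst (atp W 0) ⟨[], []⟩ ⟨[], List.replicate r one⟩ ⟨[], List.replicate s one⟩
        (up one (2 ^ l)) (up one (2 ^ l)) (up one l)⟩ 1
      ⟨m, pst (atp W 0) ⟨[], []⟩ ⟨[], List.replicate r one⟩ ⟨[], List.replicate s one⟩
        (rat one (2 ^ l) 0) (up one (2 ^ l)) (up one l)⟩ := by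
    refine run_opP m PF.w .rew ?_
    funext f
    cases f <;> simp [pst, rew_up, rat, atp_zero]
  have p16 : Run d (opP .w2 .rew : Prog M PF α)
      ⟨m, pst (atp W 0) ⟨[], []⟩ ⟨[], List.replicate r one⟩ ⟨[], List.replicate s one⟩
        (rat one (2 ^ l) 0) (up one (2 ^ l)) (up one l)⟩ 1
      ⟨m, pst (atp W 0) ⟨[], []⟩ ⟨[], List.replicate r one⟩ ⟨[], List.replicate s one⟩
        (rat one (2 ^ l) 0) (rat one (2 ^ l) 0) (up one l)⟩ := by
    refine run_opP m PF.w2 .rew ?_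
    funext f
    cases f <;> simp [pst, rew_up, rat, atp_zero]
  have p17 : Run d (opP .el .rew : Prog M PF α)
      ⟨m, pst (atp W 0) ⟨[], []⟩ ⟨[], List.replicate r one⟩ ⟨[], List.replicate s one⟩
        (rat one (2 ^ l) 0) (rat one (2 ^ l) 0) (up one l)⟩ 1
      ⟨m, fillSt one W ⟨[], List.replicate r one⟩ ⟨[], List.replicate s one⟩
        ⟨[], List.replicate l one⟩ (2 ^ l) 0 0 0 []⟩ := by
    refine run_opP m PF.el .rew ?_
    funext f
    cases f <;> simp [pst, fillSt, rew_up]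
  exact (Run.seq p12 (Run.seq p13 (Run.seq p14 (Run.seq p15
    (Run.seq p16 p17))))).mono (by omega)

/-- The filling of the array. -/
def parseD (enc : Letter → α) : Prog M PF α :=
  .seq (fill (enc .hash) (enc .zero))
    (.seq (opP .dat .rew) (.seq (opP .fin .rew) (opP .fin .trunc)))

theorem run_parseD (m : M) (enc : Letter → α) (henc : Function.Injective enc) (one : α)
    {r s : ℕ} (hr : 1 ≤ r) (N : Fin r → Fin s → Bool) (l : ℕ) (hrl : r ≤ 2 ^ l) (hsl : s ≤ 2 ^ l) :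
    Run d (parseD enc)
      ⟨m, fillSt one ((matWord N).map enc) ⟨[], List.replicate r one⟩ ⟨[], List.replicate s one⟩
        ⟨[], List.replicate l one⟩ (2 ^ l) 0 0 0 []⟩
      (2 ^ l * (2 ^ l * 6 + 6) + 5)
      ⟨m, pst ⟨[], []⟩ ⟨[], (H525.dBits l l (extM N)).map fun b => enc (bitL b)⟩
        ⟨[], List.replicate r one⟩ ⟨[], List.replicate s one⟩ ⟨[], List.replicate (2 ^ l) one⟩
        ⟨[], List.replicate (2 ^ l) one⟩ ⟨[], List.replicate l one⟩⟩ := by
  set W := (matWord N).map enc with hW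
  have p18 := run_fill (d := d) m enc henc one hr N ⟨[], List.replicate r one⟩
    ⟨[], List.replicate s one⟩ ⟨[], List.replicate l one⟩ (2 ^ l) hsl hrl Nat.one_le_two_pow
  set A := (List.range (2 ^ l)).flatMap fun i => rowSym enc N i (2 ^ l) with hA
  have p19 : Run d (opP .dat .rew : Prog M PF α)
      ⟨m, fillSt one W ⟨[], List.replicate r one⟩ ⟨[], List.replicate s one⟩
        ⟨[], List.replicate l one⟩ (2 ^ l) 0 0 (r * (s + 1) - 1) A⟩ 1
      ⟨m, pst (atp W (r * (s + 1) - 1)) ⟨[], A⟩ ⟨[], List.replicate r one⟩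
        ⟨[], List.replicate s one⟩ ⟨[], List.replicate (2 ^ l) one⟩
        ⟨[], List.replicate (2 ^ l) one⟩ ⟨[], List.replicate l one⟩⟩ := by
    refine run_opP m PF.dat .rew ?_
    funext f
    cases f <;> simp [pst, fillSt, rat, atp_zero, Op.app]
  have p20 : Run d (opP .fin .rew : Prog M PF α)
      ⟨m, pst (atp W (r * (s + 1) - 1)) ⟨[], A⟩ ⟨[], List.replicate r one⟩
        ⟨[], List.replicate s one⟩ ⟨[], List.replicate (2 ^ l) one⟩
        ⟨[], List.replicate (2 ^ l) one⟩ ⟨[], List.replicate l one⟩⟩ 1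
      ⟨m, pst (atp W 0) ⟨[], A⟩ ⟨[], List.replicate r one⟩
        ⟨[], List.replicate s one⟩ ⟨[], List.replicate (2 ^ l) one⟩
        ⟨[], List.replicate (2 ^ l) one⟩ ⟨[], List.replicate l one⟩⟩ := by
    refine run_opP m PF.fin .rew ?_
    funext f
    cases f <;> simp [pst, rew_atp]
  have hAd : (H525.dBits l l (extM N)).map (fun b => enc (bitL b)) = A := by
    rw [H525.dBits_top, List.map_flatMap, hA]
    simp [rowSym, List.map_map, Function.comp_def]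
  have p21 : Run d (opP .fin .trunc : Prog M PF α)
      ⟨m, pst (atp W 0) ⟨[], A⟩ ⟨[], List.replicate r one⟩
        ⟨[], List.replicate s one⟩ ⟨[], List.replicate (2 ^ l) one⟩
        ⟨[], List.replicate (2 ^ l) one⟩ ⟨[], List.replicate l one⟩⟩ 1
      ⟨m, pst ⟨[], []⟩ ⟨[], (H525.dBits l l (extM N)).map fun b => enc (bitL b)⟩
        ⟨[], List.replicate r one⟩ ⟨[], List.replicate s one⟩ ⟨[], List.replicate (2 ^ l) one⟩
        ⟨[], List.replicate (2 ^ l) one⟩ ⟨[], List.replicate l one⟩⟩ := by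
    refine run_opP m PF.fin .trunc ?_
    rw [hAd]
    funext f
    cases f <;> simp [pst, atp_zero, Op.app]
  exact (Run.seq p18 (Run.seq p19 (Run.seq p20 p21))).mono (by omega)

/-- The complete input phase. -/
def parse (enc : Letter → α) (one : α) : Prog M PF α :=
  .seq (parseA enc one) (.seq (parseB one) (.seq parseC (parseD enc)))

/-- **The input phase**: the word representing an `r × s` matrix becomes the padded array in the
file `dat`; the rulers have lengths `r`, `s`, `2 ^ l`, `2 ^ l`, `l`, where `2 ^ l` is the width. -/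
theorem run_parse (m : M) (enc : Letter → α) (henc : Function.Injective enc) (one : α)
    {r s : ℕ} (hr : 1 ≤ r) (N : Fin r → Fin s → Bool) (l : ℕ)
    (hl : l = Nat.clog 2 (max r s)) :
    Run d (parse enc one)
      ⟨m, pst ⟨((matWord N).map enc).reverse, []⟩ ⟨[], []⟩ ⟨[], []⟩ ⟨[], []⟩ ⟨[], []⟩ ⟨[], []⟩ ⟨[], []⟩⟩
      (80 * 4 ^ l)
      ⟨m, pst ⟨[], []⟩ ⟨[], (H525.dBits l l (extM N)).map fun b => enc (bitL b)⟩
        ⟨[], List.replicate r one⟩ ⟨[], List.replicate s one⟩ ⟨[], List.replicate (2 ^ l) one⟩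
        ⟨[], List.replicate (2 ^ l) one⟩ ⟨[], List.replicate l one⟩⟩ := by
  have hle : max r s ≤ 2 ^ l := by
    rw [hl]
    exact Nat.le_pow_clog (by norm_num) _
  have hrl : r ≤ 2 ^ l := (le_max_left _ _).trans hle
  have hsl : s ≤ 2 ^ l := (le_max_right _ _).trans hle
  refine (Run.seq (run_parseA (d := d) m enc henc one hr N) (Run.seq
    (run_parseB m one _ r s l hl) (Run.seq (run_parseC m one _ r s l)
    (run_parseD m enc henc one hr N l hrl hsl)))).mono ?_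
  have h1 : 1 ≤ 2 ^ l := Nat.one_le_two_pow
  have h4 : (4 : ℕ) ^ l = 2 ^ l * 2 ^ l := by
    rw [← mul_pow]
    norm_num
  have h5 : r * (s + 1) ≤ 2 ^ l * (2 ^ l + 1) :=
    Nat.mul_le_mul hrl (by omega)
  have h6 : 2 ^ l * (2 ^ l + 1) = 4 ^ l + 2 ^ l := by
    rw [h4]
    ring
  have h7 : 2 ^ l ≤ 4 ^ l := by
    rw [h4]
    nlinarith
  have h8 : 2 ^ l * (2 ^ l * 6 + 6) = 6 * 4 ^ l + 6 * 2 ^ l := by
    rw [h4]
    ring
  have h9 : 1 ≤ 4 ^ l := Nat.one_le_pow _ _ (by norm_num)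
  omega

end Vale.Agent.P338.R2.H207
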