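import Vale.Agent.P338.R2.H207.Basic
import Vale.Agent.P338.R2.H525.DBits

/-!
The output phase: from the padded transposed array to the output word.
-/

namespace Vale.Agent.P338.R2.H207

open Vale.Agent.P338.R2.H898
open Prog

/-- The files of the output phase: the array, the output, the ruler of the width of the array,
the ruler of the length of the rows of the output, the ruler of the number of rows of the
output. -/
inductive UF
  | arr
  | out
  | q
  | a
  | b
  deriving DecidableEq

instance : Fintype UF := ⟨{.arr, .out, .q, .a, .b}, by intro x; cases x <;> simp⟩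

variable {M α : Type} {d : α}

/-- The files. -/
def ust (A Q Ra Rb : List α) (pa pq ia ib : ℕ) (o : List α) : UF → Zip α
  | .arr => atp A pa
  | .out => ⟨o.reverse, []⟩
  | .q => atp Q pq
  | .a => atp Ra ia
  | .b => atp Rb ib

/-- Copy a row. -/
def urow : Prog M UF α :=
  .seq (forR .q (.seq (.ite (fun _ x => (x .a).isSome) (.seq (copyS .arr .out) (opP .a .right)) nopP)
    (opP .arr .right))) (opP .a .rew)

/-- The output phase. -/
def unpad (hash : α) : Prog M UF α :=
  .seq (forR .b (.seq urow (emit .out hash))) (.seq (opP .out .left) (opP .out .trunc))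

theorem take_drop_succ (A : List α) (k n : ℕ) (h : k + n < A.length) :
    (A.drop k).take (n + 1) = (A.drop k).take n ++ [A[k + n]] := by
  rw [List.take_add_one]
  congr 1
  rw [List.getElem?_drop, List.getElem?_eq_getElem h]
  rfl

theorem run_urow (m : M) (A Q Ra Rb : List α) (pa ib : ℕ) (o : List α)
    (h1 : Ra.length ≤ Q.length) (h2 : pa + Q.length ≤ A.length) :
    Run d urow ⟨m, ust A Q Ra Rb pa 0 0 ib o⟩ (Q.length * 7 + 3)
      ⟨m, ust A Q Ra Rb (pa + Q.length) 0 0 ib (o ++ (A.drop pa).take Ra.length)⟩ := by
  have key : Run d (forR .q (.seq (.ite (fun _ x => (x .a).isSome)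
      (.seq (copyS .arr .out) (opP .a .right)) nopP) (opP .arr .right)))
      ⟨m, ust A Q Ra Rb pa 0 0 ib o⟩ (Q.length * (5 + 2) + 2)
      ⟨m, ust A Q Ra Rb (pa + Q.length) 0 Ra.length ib (o ++ (A.drop pa).take Ra.length)⟩ := by
    refine run_forR m UF.q _ Q (fun j => ust A Q Ra Rb (pa + j) j (min j Ra.length) ib
      (o ++ (A.drop pa).take (min j Ra.length))) 5 (fun i _ => rfl) (fun i hi => ?_) ?_ ?_
    · by_cases hia : i < Ra.length
      · have e1 : min i Ra.length = i := by omega
        have e2 : min (i + 1) Ra.length = i + 1 := by omega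
        have c1 : Run d (copyS .arr .out : Prog M UF α)
            ⟨m, ust A Q Ra Rb (pa + i) i i ib (o ++ (A.drop pa).take i)⟩ 2
            ⟨m, ust A Q Ra Rb (pa + i) i i ib (o ++ (A.drop pa).take (i + 1))⟩ := by
          refine run_copyS m UF.arr UF.out (A[pa + i]'(by omega)) rfl ?_ ?_
          · simp only [ust]
            rw [atp_peek, List.getElem?_eq_getElem]
          · funext f
            cases f <;> simp [ust, take_drop_succ A pa i (by omega)]
        have c2 : Run d (opP .a .right : Prog M UF α)
            ⟨m, ust A Q Ra Rb (pa + i) i i ib (o ++ (A.drop pa).take (i + 1))⟩ 1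
            ⟨m, ust A Q Ra Rb (pa + i) i (i + 1) ib (o ++ (A.drop pa).take (i + 1))⟩ := by
          refine run_opP m UF.a .right ?_
          funext f
          cases f <;> simp [ust, right_atp Ra i hia]
        have c3 : Run d (opP .arr .right : Prog M UF α)
            ⟨m, ust A Q Ra Rb (pa + i) i (i + 1) ib (o ++ (A.drop pa).take (i + 1))⟩ 1
            ⟨m, ust A Q Ra Rb (pa + i + 1) i (i + 1) ib (o ++ (A.drop pa).take (i + 1))⟩ := by
          refine run_opP m UF.arr .right ?_
          funext f
          cases f <;> simp [ust, right_atp A (pa + i) (by omega)]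
        have c4 := Run.seq (Run.iteT (c := fun _ (x : UF → Option α) => (x .a).isSome)
          (q := nopP) (by
            simp only [Store.reads, ust]
            rw [atp_peek]
            simp [hia]) (Run.seq c1 c2)) c3
        simp only [e1, e2]
        refine (c4.mono (by omega)).congr ?_ ?_
        · rfl
        · congr 1
          funext f
          cases f <;> simp [ust, add_assoc]
      · have e1 : min i Ra.length = Ra.length := by omega
        have e2 : min (i + 1) Ra.length = Ra.length := by omega
        have c3 : Run d (opP .arr .right : Prog M UF α)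
            ⟨m, ust A Q Ra Rb (pa + i) i Ra.length ib (o ++ (A.drop pa).take Ra.length)⟩ 1
            ⟨m, ust A Q Ra Rb (pa + i + 1) i Ra.length ib (o ++ (A.drop pa).take Ra.length)⟩ := by
          refine run_opP m UF.arr .right ?_
          funext f
          cases f <;> simp [ust, right_atp A (pa + i) (by omega)]
        have c4 := Run.seq (Run.iteF (c := fun _ (x : UF → Option α) => (x .a).isSome)
          (p := .seq (copyS .arr .out) (opP .a .right)) (by
            simp only [Store.reads, ust]
            rw [atp_peek]
            simp) (run_nopP m _)) c3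
        simp only [e1, e2]
        refine (c4.mono (by omega)).congr ?_ ?_
        · rfl
        · congr 1
          funext f
          cases f <;> simp [ust, add_assoc]
    · simp
    · funext f
      cases f <;> simp [ust, h1]
  refine (Run.seq key (run_opP (z' := ust A Q Ra Rb (pa + Q.length) 0 0 ib (o ++ (A.drop pa).take Ra.length)) m UF.a .rew ?_)).mono (by omega)
  funext f
  cases f <;> simp [ust, rew_atp]

/-- The output symbols, each row followed by a separator. -/
def outRows (hash : α) (A : List α) (W n1 n2 : ℕ) : List α :=
  (List.range n2).flatMap fun k => (A.drop (k * W)).take n1 ++ [hash]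

theorem run_unpad (m : M) (hash : α) (A Q Ra Rb o : List α)
    (h1 : Ra.length ≤ Q.length) (h2 : Rb.length * Q.length ≤ A.length)
    (ho : outRows hash A Q.length Ra.length Rb.length = o ++ [hash]) :
    Run d (unpad hash) ⟨m, ust A Q Ra Rb 0 0 0 0 []⟩ (Rb.length * (Q.length * 7 + 7) + 4)
      ⟨m, ust A Q Ra Rb (Rb.length * Q.length) 0 0 0 o⟩ := by
  have key : Run d (forR .b (.seq urow (emit .out hash)))
      ⟨m, ust A Q Ra Rb 0 0 0 0 []⟩ (Rb.length * ((Q.length * 7 + 5) + 2) + 2)
      ⟨m, ust A Q Ra Rb (Rb.length * Q.length) 0 0 0 (o ++ [hash])⟩ := by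
    refine run_forR m UF.b _ Rb (fun i => ust A Q Ra Rb (i * Q.length) 0 0 i
      (outRows hash A Q.length Ra.length i)) _ (fun i _ => rfl) (fun i hi => ?_) ?_ ?_
    · have hle : i * Q.length + Q.length ≤ A.length := by
        calc i * Q.length + Q.length = (i + 1) * Q.length := by ring
          _ ≤ Rb.length * Q.length := Nat.mul_le_mul_right _ hi
          _ ≤ A.length := h2
      have c1 := run_urow (d := d) m A Q Ra Rb (i * Q.length) i
        (outRows hash A Q.length Ra.length i) h1 hle
      have c2 : Run d (emit .out hash : Prog M UF α)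
          ⟨m, ust A Q Ra Rb (i * Q.length + Q.length) 0 0 i
            (outRows hash A Q.length Ra.length i ++ (A.drop (i * Q.length)).take Ra.length)⟩ 2
          ⟨m, ust A Q Ra Rb (i * Q.length + Q.length) 0 0 i
            (outRows hash A Q.length Ra.length (i + 1))⟩ := by
        refine run_emit m UF.out hash rfl ?_
        funext f
        cases f <;> simp [ust, outRows, List.range_succ]
      refine ((Run.seq c1 c2).mono (by omega)).congr rfl ?_
      congr 1
      funext f
      cases f <;> simp [ust, add_mul]
    · funext f
      cases f <;> simp [ust, outRows]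
    · rw [ho]
      funext f
      cases f <;> simp [ust]
  have c2 : Run d (opP .out .left : Prog M UF α)
      ⟨m, ust A Q Ra Rb (Rb.length * Q.length) 0 0 0 (o ++ [hash])⟩ 1
      ⟨m, Function.update (ust A Q Ra Rb (Rb.length * Q.length) 0 0 0 o) .out
        ⟨o.reverse, [hash]⟩⟩ := by
    refine run_opP m UF.out .left ?_
    funext f
    cases f <;> simp [ust, Op.app]
  have c3 : Run d (opP .out .trunc : Prog M UF α)
      ⟨m, Function.update (ust A Q Ra Rb (Rb.length * Q.length) 0 0 0 o) .out
        ⟨o.reverse, [hash]⟩⟩ 1
      ⟨m, ust A Q Ra Rb (Rb.length * Q.length) 0 0 0 o⟩ := by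
    refine run_opP m UF.out .trunc ?_
    funext f
    cases f <;> simp [ust, Op.app]
  exact (Run.seq key (Run.seq c2 c3)).mono (le_of_eq (by ring))

/-- Rows separated by a symbol, each row followed by a separator. -/
theorem intercalate_append (h : α) (L : List (List α)) (hL : L ≠ []) :
    List.intercalate [h] L ++ [h] = L.flatMap fun x => x ++ [h] := by
  induction L with
  | nil => exact absurd rfl hL
  | cons x L ih =>
    cases L with
    | nil => simp
    | cons y L =>
      have := ih (by simp)
      rw [List.flatMap_cons, ← this]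
      simp [List.intercalate, List.intersperse]

theorem map_intercalate {β : Type} (f : α → β) (h : α) (L : List (List α)) :
    (List.intercalate [h] L).map f = List.intercalate [f h] (L.map (List.map f)) := by
  induction L with
  | nil => simp
  | cons x L ih =>
    cases L with
    | nil => simp
    | cons y L =>
      simp only [List.intercalate, List.map_cons] at ih ⊢
      simp [List.intersperse, ih]

theorem length_flatMap_range {n W : ℕ} {f : ℕ → List α} (hf : ∀ i < n, (f i).length = W) :
    ((List.range n).flatMap f).length = n * W := by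
  induction n with
  | zero => simp
  | succ n ih =>
    rw [List.range_succ, List.flatMap_append, List.length_append,
      ih (fun i hi => hf i (by omega))]
    simp [hf n (by omega), Nat.succ_mul]

theorem drop_take_flatMap {n W : ℕ} {f : ℕ → List α} (hf : ∀ i < n, (f i).length = W) {k r : ℕ}
    (hk : k < n) (hr : r ≤ W) :
    (((List.range n).flatMap f).drop (k * W)).take r = (f k).take r := by
  induction n with
  | zero => omega
  | succ n ih =>
    have hlen := length_flatMap_range (n := n) (W := W) (f := f) (fun i hi => hf i (by omega))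
    rw [List.range_succ, List.flatMap_append]
    by_cases hkn : k < n
    · have h1 : k * W + W ≤ n * W := by
        calc k * W + W = (k + 1) * W := by ring
          _ ≤ n * W := Nat.mul_le_mul_right _ hkn
      rw [List.drop_append_of_le_length (by omega), List.take_append_of_le_length,
        ih (fun i hi => hf i (by omega)) hkn]
      rw [List.length_drop]
      omega
    · have : k = n := by omega
      subst this
      rw [← hlen]
      simp

/-- The matrix extended by `false`. -/
def extM {r s : ℕ} (M : Fin r → Fin s → Bool) (i j : ℕ) : Bool :=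
  if h : i < r ∧ j < s then M ⟨i, h.1⟩ ⟨j, h.2⟩ else false

theorem ofFn_eq_map {β : Type} {n : ℕ} (f : Fin n → β) (g : ℕ → β)
    (h : ∀ (i : ℕ) (hi : i < n), f ⟨i, hi⟩ = g i) : List.ofFn f = (List.range n).map g := by
  apply List.ext_getElem
  · simp
  · intro i h1 h2
    simp only [List.getElem_ofFn, List.getElem_map, List.getElem_range]
    exact h i _

open H525 in
theorem outRows_dBits (enc : Letter → α) {r s : ℕ} (hs : 1 ≤ s) (M : Fin r → Fin s → Bool)
    (l : ℕ) (hr2 : r ≤ 2 ^ l) (hs2 : s ≤ 2 ^ l) :
    outRows (enc .hash) ((dBits l 0 (extM M)).map fun b => enc (bitL b)) (2 ^ l) r s =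
      (matWord fun j i => M i j).map enc ++ [enc .hash] := by
  have h1 : (dBits l 0 (extM M)).map (fun b => enc (bitL b)) =
      (List.range (2 ^ l)).flatMap fun i => (List.range (2 ^ l)).map fun j =>
        enc (bitL (extM M j i)) := by
    rw [dBits_zero, List.map_flatMap]
    simp [List.map_map, Function.comp_def]
  have h2 : (List.ofFn fun (j : Fin s) => List.ofFn fun (i : Fin r) => bitL (M i j)).map
      (List.map enc) = (List.range s).map fun k => (List.range r).map fun j =>
        enc (bitL (extM M j k)) := by
    rw [List.map_ofFn]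
    apply ofFn_eq_map
    intro k hk
    simp only [Function.comp_apply, List.map_ofFn]
    apply ofFn_eq_map
    intro j hj
    simp [extM, hj, hk]
  rw [h1, matWord, map_intercalate, h2, intercalate_append]
  · rw [outRows, List.flatMap_map]
    apply List.flatMap_congr
    intro k hk
    rw [List.mem_range] at hk
    rw [drop_take_flatMap (fun i _ => by simp) (by omega) hr2, ← List.map_take, List.take_range,
      min_eq_left hr2]
  · simp
    omega

/-- **The output phase.** -/
theorem run_unpad_dBits (m : M) (enc : Letter → α) {r s : ℕ} (hs : 1 ≤ s)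
    (N : Fin r → Fin s → Bool) (l : ℕ) (hr2 : r ≤ 2 ^ l) (hs2 : s ≤ 2 ^ l) (Q Ra Rb : List α)
    (hQ : Q.length = 2 ^ l) (hRa : Ra.length = r) (hRb : Rb.length = s) :
    Run d (unpad (enc .hash))
      ⟨m, ust ((H525.dBits l 0 (extM N)).map fun b => enc (bitL b)) Q Ra Rb 0 0 0 0 []⟩
      (18 * 4 ^ l)
      ⟨m, ust ((H525.dBits l 0 (extM N)).map fun b => enc (bitL b)) Q Ra Rb (s * 2 ^ l) 0 0 0
        ((matWord fun j i => N i j).map enc)⟩ := by
  have hlen : ((H525.dBits l 0 (extM N)).map fun b => enc (bitL b)).length = 2 ^ l * 2 ^ l := by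
    rw [List.length_map, H525.dBits_zero, length_flatMap_range (W := 2 ^ l) (by simp)]
  have h := run_unpad (d := d) m (enc .hash)
    ((H525.dBits l 0 (extM N)).map fun b => enc (bitL b)) Q Ra Rb
    ((matWord fun j i => N i j).map enc) (by omega) (by
      rw [hlen, hQ, hRb]
      exact Nat.mul_le_mul_right _ hs2) (by
      rw [hQ, hRa, hRb]
      exact outRows_dBits enc hs N l hr2 hs2)
  rw [hQ, hRb] at h
  refine h.mono ?_
  have h1 : 1 ≤ 2 ^ l := Nat.one_le_two_pow
  have h4 : (4 : ℕ) ^ l = 2 ^ l * 2 ^ l := by
    rw [← mul_pow]
    norm_num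
  rw [h4]
  have h5 : s * (2 ^ l * 7 + 7) ≤ 2 ^ l * (2 ^ l * 7 + 7) := Nat.mul_le_mul_right _ hs2
  nlinarith

end Vale.Agent.P338.R2.H207
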